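import Vale.Agent.Lib.P074.Third.Basic

/-!
# P074: the `1/3`-estimate for power-diagram maps from `LipStatement` and `GNStatement`

Sandwich argument: on the cells of the first diagram the difference of the two potentials is
bounded above, on the cells of the second diagram it is bounded below, in both cases by
`D ‖y' k - y k‖ + |ψ' k - ψ k - c|`.  Summing over the cells bounds the `L²` norm of the
difference of the potentials by the transport cost, and the interpolation inequality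
`GNStatement` converts this into the `1/3`-estimate for the maps.
-/

namespace Vale.Agent.Lib.P074

open MeasureTheory ENNReal

namespace Disc

variable {d n : ℕ}

private lemma continuous_ppot (y : Fin (n + 1) → E d) (ψ : Fin (n + 1) → ℝ) :
    Continuous (ppot y ψ) := by
  unfold ppot
  exact Continuous.finset_sup'_apply Finset.univ_nonempty (fun k _ => by fun_prop)

private lemma integrable_unif_of_continuous {K : Set (E d)} (hK : IsCompact K)
    (hint : (interior K).Nonempty) {f : E d → ℝ} (hf : Continuous f) :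
    Integrable f (unif K) := by
  unfold unif
  refine Integrable.smul_measure ?_ ?_
  · exact hf.continuousOn.integrableOn_compact hK
  · exact ENNReal.inv_ne_top.mpr (volume_pos_of_interior hint).ne'

private lemma sq_split (t : ℝ) : t ^ 2 = (max t 0) ^ 2 + (min t 0) ^ 2 := by
  rcases le_total 0 t with h | h
  · rw [max_eq_left h, min_eq_right h]
    ring
  · rw [max_eq_right h, min_eq_left h]
    ring

/-- Integral of a function over the cells of a diagram, bounded cell by cell. -/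
private lemma integral_le_sum_cells {K : Set (E d)} (hK : IsCompact K)
    (hint : (interior K).Nonempty) {y : Fin (n + 1) → E d} (hy : Function.Injective y)
    (ψ : Fin (n + 1) → ℝ) {f : E d → ℝ} (hf : Integrable f (unif K)) (b : Fin (n + 1) → ℝ)
    (hb : ∀ k, ∀ x ∈ pcell K y ψ k, f x ≤ b k) :
    ∫ x, f x ∂(unif K) ≤ ∑ k, cmass K y ψ k * b k := by
  have hprob := unif_isProbabilityMeasure hK hint
  rw [integral_eq_sum_pcell hK hy ψ f hf]
  refine Finset.sum_le_sum (fun k _ => ?_)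
  rw [← setIntegral_const_pcell hK hint y ψ k (b k)]
  exact setIntegral_mono_on hf.integrableOn (integrable_const _).integrableOn
    (measurableSet_pcell hK.isClosed y ψ k) (hb k)

/-- The sandwich estimate for the difference of two power-diagram potentials. -/
private lemma claim {K : Set (E d)} (hK : IsCompact K) (hint : (interior K).Nonempty) {D : ℝ}
    (hD0 : 0 ≤ D) (hD : ∀ x ∈ K, ‖x‖ ≤ D) {y y' : Fin (n + 1) → E d}
    {ψ ψ' : Fin (n + 1) → ℝ} (hy : Function.Injective y) (hy' : Function.Injective y')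
    (hm : ∀ k, cmass K y' ψ' k = cmass K y ψ k) (c : ℝ) :
    ∫ x, (ppot y ψ x - ppot y' ψ' x - c) ^ 2 ∂(unif K)
      ≤ 4 * D ^ 2 * ∑ k, cmass K y ψ k * ‖y' k - y k‖ ^ 2
        + 4 * ∑ k, cmass K y ψ k * (ψ' k - ψ k - c) ^ 2 := by
  set g : E d → ℝ := fun x => ppot y ψ x - ppot y' ψ' x - c with hg
  set b : Fin (n + 1) → ℝ := fun k => D * ‖y' k - y k‖ + |ψ' k - ψ k - c| with hb
  have hgc : Continuous g := ((continuous_ppot y ψ).sub (continuous_ppot y' ψ')).sub
    continuous_const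
  have hb0 : ∀ k, 0 ≤ b k := fun k => add_nonneg (mul_nonneg hD0 (norm_nonneg _)) (abs_nonneg _)
  have hinner : ∀ k, ∀ x ∈ K, |inner ℝ x (y' k - y k)| ≤ D * ‖y' k - y k‖ := by
    intro k x hx
    exact (abs_real_inner_le_norm _ _).trans
      (mul_le_mul_of_nonneg_right (hD x hx) (norm_nonneg _))
  -- upper bound on the cells of the first diagram
  have h1 : ∀ k, ∀ x ∈ pcell K y ψ k, (max (g x) 0) ^ 2 ≤ b k ^ 2 := by
    intro k x hx
    have e1 := ppot_eq_of_mem hx
    have e2 := ppot_ge y' ψ' x k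
    have e3 := (abs_le.mp (hinner k x hx.1)).1
    have e4 := le_abs_self (ψ' k - ψ k - c)
    have e5 : g x ≤ b k := by
      simp only [hg, hb]
      rw [inner_sub_right] at e3
      linarith
    have e6 : max (g x) 0 ≤ b k := max_le e5 (hb0 k)
    have e7 : 0 ≤ max (g x) 0 := le_max_right _ _
    exact pow_le_pow_left₀ e7 e6 2
  -- lower bound on the cells of the second diagram
  have h2 : ∀ k, ∀ x ∈ pcell K y' ψ' k, (min (g x) 0) ^ 2 ≤ b k ^ 2 := by
    intro k x hx
    have e1 := ppot_eq_of_mem hx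
    have e2 := ppot_ge y ψ x k
    have e3 := (abs_le.mp (hinner k x hx.1)).2
    have e4 := neg_abs_le (ψ' k - ψ k - c)
    have e5 : - b k ≤ g x := by
      simp only [hg, hb]
      rw [inner_sub_right] at e3
      linarith
    have e6 : - b k ≤ min (g x) 0 := le_min e5 (by linarith [hb0 k])
    have e7 : min (g x) 0 ≤ 0 := min_le_right _ _
    nlinarith
  have hmaxc : Continuous (fun x => (max (g x) 0) ^ 2) :=
    (hgc.max continuous_const).pow 2
  have hminc : Continuous (fun x => (min (g x) 0) ^ 2) :=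
    (hgc.min continuous_const).pow 2
  have hmaxi := integrable_unif_of_continuous hK hint hmaxc
  have hmini := integrable_unif_of_continuous hK hint hminc
  have hI1 := integral_le_sum_cells hK hint hy ψ hmaxi (fun k => b k ^ 2) h1
  have hI2 := integral_le_sum_cells hK hint hy' ψ' hmini (fun k => b k ^ 2) h2
  have hsplit : ∫ x, (ppot y ψ x - ppot y' ψ' x - c) ^ 2 ∂(unif K)
      = ∫ x, (max (g x) 0) ^ 2 ∂(unif K) + ∫ x, (min (g x) 0) ^ 2 ∂(unif K) := by
    rw [← integral_add hmaxi hmini]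
    refine integral_congr_ae (Filter.Eventually.of_forall (fun x => ?_))
    exact sq_split (g x)
  have hI2' : ∫ x, (min (g x) 0) ^ 2 ∂(unif K) ≤ ∑ k, cmass K y ψ k * b k ^ 2 := by
    refine hI2.trans (le_of_eq ?_)
    exact Finset.sum_congr rfl (fun k _ => by rw [hm k])
  have hbk : ∀ k, cmass K y ψ k * b k ^ 2
      ≤ 2 * D ^ 2 * (cmass K y ψ k * ‖y' k - y k‖ ^ 2)
        + 2 * (cmass K y ψ k * (ψ' k - ψ k - c) ^ 2) := by
    intro k
    have hmk := cmass_nonneg K y ψ k
    have e1 : b k ^ 2 ≤ 2 * D ^ 2 * ‖y' k - y k‖ ^ 2 + 2 * (ψ' k - ψ k - c) ^ 2 := by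
      simp only [hb]
      have e2 : |ψ' k - ψ k - c| ^ 2 = (ψ' k - ψ k - c) ^ 2 := sq_abs _
      nlinarith [sq_nonneg (D * ‖y' k - y k‖ - |ψ' k - ψ k - c|)]
    calc cmass K y ψ k * b k ^ 2
        ≤ cmass K y ψ k * (2 * D ^ 2 * ‖y' k - y k‖ ^ 2 + 2 * (ψ' k - ψ k - c) ^ 2) :=
          mul_le_mul_of_nonneg_left e1 hmk
      _ = 2 * D ^ 2 * (cmass K y ψ k * ‖y' k - y k‖ ^ 2)
          + 2 * (cmass K y ψ k * (ψ' k - ψ k - c) ^ 2) := by ring
  have hsum : ∑ k, cmass K y ψ k * b k ^ 2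
      ≤ 2 * D ^ 2 * ∑ k, cmass K y ψ k * ‖y' k - y k‖ ^ 2
        + 2 * ∑ k, cmass K y ψ k * (ψ' k - ψ k - c) ^ 2 := by
    rw [Finset.mul_sum, Finset.mul_sum, ← Finset.sum_add_distrib]
    exact Finset.sum_le_sum (fun k _ => hbk k)
  rw [hsplit]
  linarith

end Disc

theorem disc_of_lip_gn (d : ℕ) (hlip : LipStatement d) (hgn : GNStatement d) :
    DiscStatement d := by
  intro K hK hconv hint R hR
  obtain ⟨D0, hD0⟩ := hK.isBounded.exists_norm_le
  obtain ⟨CL, hCL0, hCL⟩ := hlip K hK hconv hint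
  obtain ⟨CG, hCG0, hCG⟩ := hgn K hK hconv hint R hR
  have hDmax : 0 ≤ max D0 0 := le_max_right _ _
  refine ⟨CG * (4 * (max D0 0) ^ 2 + 4 * CL) ^ (1 / 3 : ℝ), by positivity, ?_⟩
  intro n y y' ψ ψ' hy hy' hyR hy'R hpos hm
  obtain ⟨c, hc⟩ := hCL n y y' ψ ψ' hy hy' hpos hm
  have hgn' := hCG (ppot y ψ) (ppot y' ψ') (pmap y ψ) (pmap y' ψ') (convexOn_ppot y ψ)
    (convexOn_ppot y' ψ') (ppot_lipschitz hyR ψ) (ppot_lipschitz hy'R ψ')
    (measurable_pmap y ψ) (measurable_pmap y' ψ')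
    (Filter.Eventually.of_forall (fun x z => ppot_subgradient y ψ x z))
    (Filter.Eventually.of_forall (fun x z => ppot_subgradient y' ψ' x z)) c
  have hclaim := Disc.claim hK hint hDmax
    (fun x hx => (hD0 x hx).trans (le_max_left _ _)) hy hy' hm c
  have hW0 : 0 ≤ ∑ k, cmass K y ψ k * ‖y' k - y k‖ ^ 2 :=
    Finset.sum_nonneg (fun k _ => mul_nonneg (cmass_nonneg K y ψ k) (by positivity))
  have hI : ∫ x, (ppot y ψ x - ppot y' ψ' x - c) ^ 2 ∂(unif K)
      ≤ (4 * (max D0 0) ^ 2 + 4 * CL) * ∑ k, cmass K y ψ k * ‖y' k - y k‖ ^ 2 := by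
    linarith
  have hI0 : 0 ≤ ∫ x, (ppot y ψ x - ppot y' ψ' x - c) ^ 2 ∂(unif K) :=
    integral_nonneg (fun x => sq_nonneg _)
  calc ∫ x, ‖pmap y ψ x - pmap y' ψ' x‖ ^ 2 ∂(unif K)
      ≤ CG * (∫ x, (ppot y ψ x - ppot y' ψ' x - c) ^ 2 ∂(unif K)) ^ (1 / 3 : ℝ) := hgn'
    _ ≤ CG * ((4 * (max D0 0) ^ 2 + 4 * CL)
          * ∑ k, cmass K y ψ k * ‖y' k - y k‖ ^ 2) ^ (1 / 3 : ℝ) :=
        mul_le_mul_of_nonneg_left (Real.rpow_le_rpow hI0 hI (by norm_num)) hCG0
    _ = CG * (4 * (max D0 0) ^ 2 + 4 * CL) ^ (1 / 3 : ℝ)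
          * (∑ k, cmass K y ψ k * ‖y' k - y k‖ ^ 2) ^ (1 / 3 : ℝ) := by
        rw [Real.mul_rpow (by positivity) hW0, mul_assoc]

end Vale.Agent.Lib.P074
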